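import Vale.Agent.P002.Product.Boundary.Main

/-!
# P002: integral points with prescribed classes are dense for products of curves
-/

namespace Vale.Agent.Results.P002.CurveProductsClasses

open Matrix MvPolynomial
open Vale.Agent.P002

theorem result : ∀ (r m : ℕ) (g s : Fin m → ℕ), 2 ≤ r →
    ∀ S : Finset (Fin m), (∀ i ∈ S, 2 ≤ g i ∨ s i = 0 ∨ (g i = 0 ∧ s i ≤ 2)) →
    ∀ C : ∀ i, Fin (s i) → Matrix.SpecialLinearGroup (Fin r) ℂ,
    (∀ i ∈ S, ∀ l, ∀ μ ∈ (C i l).val.charpoly.roots, ∃ k : ℕ, 0 < k ∧ μ ^ k = 1) →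
    ∃ L : IntermediateField ℚ ℂ, FiniteDimensional ℚ L ∧
      ∀ P : MvPolynomial ((Σ i, (Fin (g i) × Bool) ⊕ Fin (s i)) × Fin r × Fin r) ℂ,
        (∀ f : (Σ i, (Fin (g i) × Bool) ⊕ Fin (s i)) → Matrix.SpecialLinearGroup (Fin r) ℂ,
          (∀ i, (List.ofFn fun k => f ⟨i, .inl (k, false)⟩ * f ⟨i, .inl (k, true)⟩ *
              (f ⟨i, .inl (k, false)⟩)⁻¹ * (f ⟨i, .inl (k, true)⟩)⁻¹).prod *
            (List.ofFn fun l => f ⟨i, .inr l⟩).prod = 1) →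
          (∀ v w, v.1 ≠ w.1 → f v * f w = f w * f v) →
          (∀ i ∈ S, ∀ l, ∃ h : Matrix.SpecialLinearGroup (Fin r) ℂ,
            f ⟨i, .inr l⟩ = h * C i l * h⁻¹) →
          (∀ U : Submodule ℂ (Fin r → ℂ), (∀ v, ∀ u ∈ U, (f v).val *ᵥ u ∈ U) →
            ∃ U' : Submodule ℂ (Fin r → ℂ), (∀ v, ∀ u ∈ U', (f v).val *ᵥ u ∈ U') ∧ IsCompl U U') →
          (∀ (v : Σ i, (Fin (g i) × Bool) ⊕ Fin (s i)) (p q : Fin r),
            (f v).val p q ∈ L ∧ IsIntegral ℤ ((f v).val p q)) →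
          eval (fun x => (f x.1).val x.2.1 x.2.2) P = 0) →
        (∀ (h : Matrix.SpecialLinearGroup (Fin r) ℂ)
          (f : (Σ i, (Fin (g i) × Bool) ⊕ Fin (s i)) → Matrix.SpecialLinearGroup (Fin r) ℂ),
          (∀ i, (List.ofFn fun k => f ⟨i, .inl (k, false)⟩ * f ⟨i, .inl (k, true)⟩ *
              (f ⟨i, .inl (k, false)⟩)⁻¹ * (f ⟨i, .inl (k, true)⟩)⁻¹).prod *
            (List.ofFn fun l => f ⟨i, .inr l⟩).prod = 1) →
          (∀ v w, v.1 ≠ w.1 → f v * f w = f w * f v) →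
          (∀ i ∈ S, ∀ l, ∃ h : Matrix.SpecialLinearGroup (Fin r) ℂ,
            f ⟨i, .inr l⟩ = h * C i l * h⁻¹) →
          eval (fun x => (h * f x.1 * h⁻¹).val x.2.1 x.2.2) P =
            eval (fun x => (f x.1).val x.2.1 x.2.2) P) →
        ∀ f : (Σ i, (Fin (g i) × Bool) ⊕ Fin (s i)) → Matrix.SpecialLinearGroup (Fin r) ℂ,
          (∀ i, (List.ofFn fun k => f ⟨i, .inl (k, false)⟩ * f ⟨i, .inl (k, true)⟩ *
              (f ⟨i, .inl (k, false)⟩)⁻¹ * (f ⟨i, .inl (k, true)⟩)⁻¹).prod *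
            (List.ofFn fun l => f ⟨i, .inr l⟩).prod = 1) →
          (∀ v w, v.1 ≠ w.1 → f v * f w = f w * f v) →
          (∀ i ∈ S, ∀ l, ∃ h : Matrix.SpecialLinearGroup (Fin r) ℂ,
            f ⟨i, .inr l⟩ = h * C i l * h⁻¹) →
          (∀ U : Submodule ℂ (Fin r → ℂ), (∀ v, ∀ u ∈ U, (f v).val *ᵥ u ∈ U) →
            ∃ U' : Submodule ℂ (Fin r → ℂ), (∀ v, ∀ u ∈ U', (f v).val *ᵥ u ∈ U') ∧ IsCompl U U') →
          eval (fun x => (f x.1).val x.2.1 x.2.2) P = 0 := by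
  intro r m g s hr S hg C hC
  classical
  have : NeZero r := ⟨by omega⟩
  let cond : Fin m → Bool := fun i => decide (i ∈ S)
  have hcond : ∀ i, cond i = true ↔ i ∈ S := fun i => by simp [cond]
  obtain ⟨N, hN, hCN⟩ := exists_order S C hC
  obtain ⟨hT, hA⟩ := twistedB_curves m g s cond fun i hi => hg i ((hcond i).1 hi)
  obtain ⟨M, hM, hmain⟩ := eval_zero_of_twistedB (r := r) hT hA hN
  have : NeZero M := ⟨hM.ne'⟩
  refine ⟨fldL M, finiteDimensional_fldL M, fun P hP0 hinv f hf hcomm hfC hss => ?_⟩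
  let Γ := ∀ i, CGrp (g i) (s i)
  let e : (Σ i, (Fin (g i) × Bool) ⊕ Fin (s i)) → Γ := fun v =>
    Pi.mulSingle v.1 (PresentedGroup.of v.2)
  have hgen : ∀ γ : Γ, γ ∈ Subgroup.closure (Set.range e) := mem_closure_gens
  let P' : MvPolynomial (Γ × Fin r × Fin r) ℂ := rename (fun x => (e x.1, x.2)) P
  have hev : ∀ τ : Γ → SLC r,
      eval (hcoord τ) P' = eval (fun x => (τ (e x.1)).val x.2.1 x.2.2) P := fun τ => by
    rw [eval_rename]; rfl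
  have hrel : ∀ (τ : Γ →* SLC r) i, (List.ofFn fun k => τ (e ⟨i, .inl (k, false)⟩) *
      τ (e ⟨i, .inl (k, true)⟩) * (τ (e ⟨i, .inl (k, false)⟩))⁻¹ *
      (τ (e ⟨i, .inl (k, true)⟩))⁻¹).prod *
      (List.ofFn fun l => τ (e ⟨i, .inr l⟩)).prod = 1 := fun τ i =>
    curveRel_hom (τ.comp (MonoidHom.mulSingle (fun i => CGrp (g i) (s i)) i))
  have hcom : ∀ (τ : Γ →* SLC r) v w, v.1 ≠ w.1 →
      τ (e v) * τ (e w) = τ (e w) * τ (e v) := fun τ v w h => by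
    rw [← map_mul, ← map_mul, (Pi.mulSingle_commute h _ _).eq]
  have hsemi : ∀ (τ : Γ →* SLC r) (U : Submodule ℂ (Fin r → ℂ)),
      (∀ v, ∀ u ∈ U, (τ (e v)).val *ᵥ u ∈ U) ↔ ∀ γ, ∀ u ∈ U, (τ γ).val *ᵥ u ∈ U := fun τ U =>
    ⟨fun h γ => invariant_closure (Matrix.SpecialLinearGroup.toGL.comp τ)
      (by rintro _ ⟨v, rfl⟩; exact h v) γ (hgen γ), fun h v => h (e v)⟩
  obtain ⟨ρ, hρ⟩ := exists_prodHom (g := g) (s := s) (fun i v => f ⟨i, v⟩) hf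
    fun i j hij v w => hcomm ⟨i, v⟩ ⟨j, w⟩ hij
  have hρe : ∀ v, ρ (e v) = f v := fun v => hρ v.1 v.2
  have hclass : ∀ τ : Γ →* SLC r, (∀ c ∈ pmarks g s cond, IsConj (ρ c) (τ c)) →
      ∀ i ∈ S, ∀ l, ∃ h : SLC r, τ (e ⟨i, .inr l⟩) = h * C i l * h⁻¹ := fun τ hτ i hi l => by
    obtain ⟨k, hk⟩ := hfC i hi l
    obtain ⟨u, hu⟩ := isConj_iff.1 (hτ (e ⟨i, .inr l⟩) ⟨i, l, (hcond i).2 hi, rfl⟩)
    rw [hρe, hk] at hu
    exact ⟨u * k, by rw [← hu]; group⟩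
  have key : eval (hcoord ρ) P' = 0 := by
    refine hmain P' ρ (fun U hU => ?_) ?_ (fun h => ?_) fun τ hτ _ hint hτss => ?_
    · obtain ⟨U', h1, h2⟩ := hss U fun v u hu => by rw [← hρe]; exact hU (e v) u hu
      exact ⟨U', (hsemi ρ U').1 fun v u hu => by rw [hρe]; exact h1 v u hu, h2⟩
    · rintro _ ⟨i, l, hi, rfl⟩
      obtain ⟨k, hk⟩ := hfC i ((hcond i).1 hi) l
      show Quasi N (ρ (e ⟨i, .inr l⟩)).val
      rw [hρe, hk]
      refine (hCN i ((hcond i).1 hi) l).conj (Matrix.SpecialLinearGroup.toGL k) ?_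
      rw [← map_inv]
      rfl
    · rw [hev, hev]
      exact hinv h (fun v => ρ (e v)) (hrel ρ) (hcom ρ) (hclass ρ fun c _ => IsConj.refl _)
    · rw [hev]
      refine hP0 (fun v => τ (e v)) (hrel τ) (hcom τ) (hclass τ hτ) (fun U hU => ?_)
        fun v p q => mem_intL.1 (hint (e v) p q)
      obtain ⟨U', h1, h2⟩ := hτss U ((hsemi τ U).1 hU)
      exact ⟨U', (hsemi τ U').2 h1, h2⟩
  rw [hev] at key
  refine (congrArg (fun F => eval F P) (funext fun x => ?_)).trans key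
  exact congrArg (fun A : SLC r => A.val x.2.1 x.2.2) (hρe x.1).symm

end Vale.Agent.Results.P002.CurveProductsClasses
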