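import Vale.Agent.P002.Punct.Main
import Vale.Agent.P002.Punct.ClassRep
import Vale.Agent.P002.Punct.Semisimple
import Vale.Agent.P002.PunctTwo.Main
import Vale.Agent.P002.PunctTwo.NearTriv

/-!
# P002: integral points with prescribed quasi-unipotent boundary classes are Zariski dense
-/

namespace Vale.Agent.Results.P002.PuncturedCurveDensityTwo

open Matrix MvPolynomial
open Vale.Agent.P002

theorem result : ∀ r g s : ℕ, 2 ≤ r → 2 ≤ g →
    ∀ C : Fin s → Matrix.SpecialLinearGroup (Fin r) ℂ,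
    (∀ j, ∀ μ ∈ (C j).val.charpoly.roots, ∃ m : ℕ, 0 < m ∧ μ ^ m = 1) →
    ∃ L : IntermediateField ℚ ℂ, FiniteDimensional ℚ L ∧
      (∃ (a b : Fin g → Matrix.SpecialLinearGroup (Fin r) ℂ)
          (c : Fin s → Matrix.SpecialLinearGroup (Fin r) ℂ),
        (List.ofFn fun i => a i * b i * (a i)⁻¹ * (b i)⁻¹).prod * (List.ofFn c).prod = 1 ∧
        (∀ j, ∃ h : Matrix.SpecialLinearGroup (Fin r) ℂ, c j = h * C j * h⁻¹) ∧
        (∀ (v : (Fin g × Bool) ⊕ Fin s) (p q : Fin r),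
          (Sum.elim (fun w => if w.2 then b w.1 else a w.1) c v).val p q ∈ L ∧
            IsIntegral ℤ ((Sum.elim (fun w => if w.2 then b w.1 else a w.1) c v).val p q)) ∧
        (∀ U : Submodule ℂ (Fin r → ℂ), (∀ (v : (Fin g × Bool) ⊕ Fin s), ∀ u ∈ U,
          (Sum.elim (fun w => if w.2 then b w.1 else a w.1) c v).val *ᵥ u ∈ U) → U = ⊥ ∨ U = ⊤)) ∧
      ∀ P : MvPolynomial (((Fin g × Bool) ⊕ Fin s) × Fin r × Fin r) ℂ,
        (∀ (a b : Fin g → Matrix.SpecialLinearGroup (Fin r) ℂ)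
            (c : Fin s → Matrix.SpecialLinearGroup (Fin r) ℂ),
          (List.ofFn fun i => a i * b i * (a i)⁻¹ * (b i)⁻¹).prod * (List.ofFn c).prod = 1 →
          (∀ j, ∃ h : Matrix.SpecialLinearGroup (Fin r) ℂ, c j = h * C j * h⁻¹) →
          (∀ (v : (Fin g × Bool) ⊕ Fin s) (p q : Fin r),
            (Sum.elim (fun w => if w.2 then b w.1 else a w.1) c v).val p q ∈ L ∧
              IsIntegral ℤ ((Sum.elim (fun w => if w.2 then b w.1 else a w.1) c v).val p q)) →
          (∀ U : Submodule ℂ (Fin r → ℂ), (∀ (v : (Fin g × Bool) ⊕ Fin s), ∀ u ∈ U,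
            (Sum.elim (fun w => if w.2 then b w.1 else a w.1) c v).val *ᵥ u ∈ U) → U = ⊥ ∨ U = ⊤) →
          eval (fun v => (Sum.elim (fun w => if w.2 then b w.1 else a w.1) c v.1).val
            v.2.1 v.2.2) P = 0) →
        ((∀ (a b : Fin g → Matrix.SpecialLinearGroup (Fin r) ℂ)
            (c : Fin s → Matrix.SpecialLinearGroup (Fin r) ℂ),
          (List.ofFn fun i => a i * b i * (a i)⁻¹ * (b i)⁻¹).prod * (List.ofFn c).prod = 1 →
          (∀ j, ∃ h : Matrix.SpecialLinearGroup (Fin r) ℂ, c j = h * C j * h⁻¹) →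
          (∀ U : Submodule ℂ (Fin r → ℂ), (∀ (v : (Fin g × Bool) ⊕ Fin s), ∀ u ∈ U,
            (Sum.elim (fun w => if w.2 then b w.1 else a w.1) c v).val *ᵥ u ∈ U) → U = ⊥ ∨ U = ⊤) →
          eval (fun v => (Sum.elim (fun w => if w.2 then b w.1 else a w.1) c v.1).val
            v.2.1 v.2.2) P = 0) ∧
        ((∀ (h : Matrix.SpecialLinearGroup (Fin r) ℂ)
            (a b : Fin g → Matrix.SpecialLinearGroup (Fin r) ℂ)
            (c : Fin s → Matrix.SpecialLinearGroup (Fin r) ℂ),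
          (List.ofFn fun i => a i * b i * (a i)⁻¹ * (b i)⁻¹).prod * (List.ofFn c).prod = 1 →
          (∀ j, ∃ h : Matrix.SpecialLinearGroup (Fin r) ℂ, c j = h * C j * h⁻¹) →
          eval (fun v => (h * Sum.elim (fun w => if w.2 then b w.1 else a w.1) c v.1 * h⁻¹).val
              v.2.1 v.2.2) P =
            eval (fun v => (Sum.elim (fun w => if w.2 then b w.1 else a w.1) c v.1).val
              v.2.1 v.2.2) P) →
          ∀ (a b : Fin g → Matrix.SpecialLinearGroup (Fin r) ℂ)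
            (c : Fin s → Matrix.SpecialLinearGroup (Fin r) ℂ),
          (List.ofFn fun i => a i * b i * (a i)⁻¹ * (b i)⁻¹).prod * (List.ofFn c).prod = 1 →
          (∀ j, ∃ h : Matrix.SpecialLinearGroup (Fin r) ℂ, c j = h * C j * h⁻¹) →
          (∀ U : Submodule ℂ (Fin r → ℂ), (∀ (v : (Fin g × Bool) ⊕ Fin s), ∀ u ∈ U,
              (Sum.elim (fun w => if w.2 then b w.1 else a w.1) c v).val *ᵥ u ∈ U) →
            ∃ U' : Submodule ℂ (Fin r → ℂ), (∀ (v : (Fin g × Bool) ⊕ Fin s), ∀ u ∈ U',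
              (Sum.elim (fun w => if w.2 then b w.1 else a w.1) c v).val *ᵥ u ∈ U') ∧
              IsCompl U U') →
          eval (fun v => (Sum.elim (fun w => if w.2 then b w.1 else a w.1) c v.1).val
            v.2.1 v.2.2) P = 0)) := by
  intro r g s hr hg C hC
  obtain ⟨n, rfl⟩ : ∃ n, g = n + 1 := ⟨g - 1, by omega⟩
  have : NeZero r := ⟨by omega⟩
  have hn : 1 ≤ n := by omega
  -- nearby points with scalar centraliser of the tail
  have hnear : ∀ (m : ℕ) [NeZero m] (z' : Fin s → SLC m) (σ₀ : PRep n s (SLC m)), 2 ≤ m →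
      relP z' σ₀ = 1 → Full (gensP z' σ₀) → ∀ ε : ℝ, 0 < ε → ∃ σ, relP z' σ = 1 ∧
        dist (coordP σ) (coordP σ₀) < ε ∧ Triv (tgensP z' σ) := by
    rcases Nat.lt_or_ge n 2 with hn2 | hn2
    · obtain rfl : n = 1 := by omega
      exact fun m _ z' σ₀ h2 h3 h4 ε hε => exists_near_trivP_one h2 h3 h4 hε
    · exact fun m _ z' σ₀ _ h3 h4 ε hε => exists_near_trivP hn2 h3 h4 hε
  -- representatives of the classes, an irreducible integral point, and vanishing at good points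
  obtain ⟨M, hM, z, k, hk, hzR, ⟨σ₀, hrel₀, hint₀, hF₀⟩, htriv⟩ :
      ∃ M, 0 < M ∧ ∃ (z k : Fin s → SLC r), (∀ j, C j = k j * z j * (k j)⁻¹) ∧
        (∀ j, z j ∈ inR (cycInt M) r) ∧
        (∃ τ : PRep n s (SLC r), relP z τ = 1 ∧ IntP (cycInt M) τ ∧ Full (gensP z τ)) ∧
        ∀ Q : MvPolynomial (PVar n s r) ℂ,
          (∀ τ, relP z τ = 1 → IntP (cycInt M) τ → Full (gensP z τ) → eval (coordP τ) Q = 0) →
          ∀ σ, relP z σ = 1 → Triv (tgensP z σ) → eval (coordP σ) Q = 0 := by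
    rcases Nat.lt_or_ge n 2 with hn2 | hn2
    · obtain rfl : n = 1 := by omega
      obtain ⟨M, hM, z, hz, hzR, hint, ht⟩ := exists_core_two hr C
        (fun j x hx => hC j x ((Polynomial.mem_roots (Matrix.charpoly_monic _).ne_zero).2 hx))
        fun z σ₀ h3 h4 ε hε => exists_near_trivP_one hr h3 h4 hε
      choose h hh using hz
      exact ⟨M, hM, z, fun j => (h j)⁻¹, fun j => by rw [hh j]; group, hzR, hint, ht⟩
    · choose z k hk htri hoff hdiag using fun j => exists_class_rep (C j)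
      choose m hm0 hm1 using fun x : Fin s × Fin r => hC x.1 _ (hdiag x.1 x.2)
      obtain ⟨M, hM, hzR, σ₀, hb₀, hrel₀, hint₀, hspan₀⟩ :=
        exists_seedP (n := n) hr hn2 z (∏ x, m x) (Finset.prod_pos fun x _ => hm0 x) htri hoff
          fun j a => by
            obtain ⟨d, hd⟩ := Finset.dvd_prod_of_mem m (Finset.mem_univ (j, a))
            rw [hd, pow_mul, hm1 (j, a), one_pow]
      exact ⟨M, hM, z, k, hk, hzR, ⟨σ₀, hrel₀, hint₀, full_gensP hspan₀⟩,
        fun Q hQ σ hσ hT => eval_zero_of_trivP hr hzR hb₀ hrel₀ hint₀ hspan₀ hQ hσ hT⟩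
  -- the two descriptions of a representation
  have hsl : ∀ (σ : PRep n s (SLC r)) (v : (Fin (n + 1) × Bool) ⊕ Fin s),
      gensP z σ v =
        (Sum.elim (fun w => if w.2 then σ.1.2 w.1 else σ.1.1 w.1) (pc z σ) v).val := by
    rintro σ (⟨i, b⟩ | j)
    · cases b <;> simp [gensP, gens]
    · rfl
  have hev : ∀ (σ : PRep n s (SLC r))
      (P : MvPolynomial (((Fin (n + 1) × Bool) ⊕ Fin s) × Fin r × Fin r) ℂ),
      eval (fun v => gensP z σ v.1 v.2.1 v.2.2) P = eval (fun v =>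
        (Sum.elim (fun w => if w.2 then σ.1.2 w.1 else σ.1.1 w.1) (pc z σ) v.1).val v.2.1 v.2.2) P :=
    fun σ P => by simp only [hsl]
  have hrelP : ∀ σ : PRep n s (SLC r), relP z σ =
      (List.ofFn fun i => σ.1.1 i * σ.1.2 i * (σ.1.1 i)⁻¹ * (σ.1.2 i)⁻¹).prod *
        (List.ofFn (pc z σ)).prod := fun σ => by rw [relP, pprod, relator_ofFn]
  have hclass : ∀ (σ : PRep n s (SLC r)) j, ∃ h, pc z σ j = h * C j * h⁻¹ := fun σ j =>
    ⟨σ.2 j * (k j)⁻¹, by rw [hk j, pc]; group⟩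
  have hfrom : ∀ (a b : Fin (n + 1) → SLC r) (c : Fin s → SLC r),
      (List.ofFn fun i => a i * b i * (a i)⁻¹ * (b i)⁻¹).prod * (List.ofFn c).prod = 1 →
      (∀ j, ∃ h : SLC r, c j = h * C j * h⁻¹) →
      ∃ σ : PRep n s (SLC r), relP z σ = 1 ∧ σ.1.1 = a ∧ σ.1.2 = b ∧ pc z σ = c := by
    intro a b c hrel hc
    choose h hh using hc
    have e : pc z (((a, b), fun j => h j * k j) : PRep n s (SLC r)) = c := funext fun j => by
      rw [pc, hh j, hk j]; group
    exact ⟨((a, b), fun j => h j * k j), by rw [hrelP, e]; exact hrel, rfl, rfl, e⟩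
  have hentry : ∀ (σ : PRep n s (SLC r)), IntP (cycInt M) σ →
      ∀ (v : (Fin (n + 1) × Bool) ⊕ Fin s) (p q : Fin r),
        (Sum.elim (fun w => if w.2 then σ.1.2 w.1 else σ.1.1 w.1) (pc z σ) v).val p q ∈
            IntermediateField.adjoin ℚ {Complex.exp (2 * Real.pi * Complex.I / M)} ∧
          IsIntegral ℤ
            ((Sum.elim (fun w => if w.2 then σ.1.2 w.1 else σ.1.1 w.1) (pc z σ) v).val p q) := by
    intro σ hσ v p q
    refine mem_cycInt.1 (mem_inR.1 ?_ p q)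
    rcases v with ⟨i, b⟩ | j
    · cases b
      exacts [(hσ.1 i).1, (hσ.1 i).2]
    · exact mul_mem (mul_mem (hσ.2 j) (hzR j)) (inv_mem (hσ.2 j))
  refine ⟨IntermediateField.adjoin ℚ {Complex.exp (2 * Real.pi * Complex.I / M)},
    IntermediateField.adjoin.finiteDimensional ((Complex.isPrimitiveRoot_exp M hM.ne').isIntegral hM |>.tower_top),
    ⟨σ₀.1.1, σ₀.1.2, pc z σ₀, (hrelP σ₀).symm.trans hrel₀, hclass σ₀, hentry σ₀ hint₀,
      fun U hU => hF₀.invariant fun v u hu => by rw [hsl]; exact hU v u hu⟩,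
    fun P hP => ?_⟩
  have hQ : ∀ τ : PRep n s (SLC r), relP z τ = 1 → IntP (cycInt M) τ → Full (gensP z τ) →
      eval (coordP τ) (pullP z P) = 0 := fun τ hτ hτi hF => by
    rw [eval_pullP, hev]
    exact hP τ.1.1 τ.1.2 (pc z τ) ((hrelP τ).symm.trans hτ) (hclass τ) (hentry τ hτi)
      fun U hU => hF.invariant fun v u hu => by rw [hsl]; exact hU v u hu
  refine ⟨fun a b c hrel hc hirr => ?_, fun hinv a b c hrel hc hss => ?_⟩
  · obtain ⟨σ, hσ, rfl, rfl, rfl⟩ := hfrom a b c hrel hc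
    have hF : Full (gensP z σ) := Irred.full fun U hU =>
      hirr U fun v u hu => by rw [← hsl]; exact hU v u hu
    have : eval (coordP σ) (pullP z P) = 0 := by
      by_contra hne
      obtain ⟨ε, hε, hball⟩ := Metric.eventually_nhds_iff.1
        ((MvPolynomial.continuous_eval (pullP z P)).continuousAt.eventually_ne hne)
      obtain ⟨σ', h1, h2, h3⟩ := hnear r z σ hr hσ hF ε hε
      exact hball h2 (htriv _ hQ σ' h1 h3)
    rwa [eval_pullP, hev] at this
  · obtain ⟨σ, hσ, rfl, rfl, rfl⟩ := hfrom a b c hrel hc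
    rw [← hev]
    refine eval_zero_of_semisimpleP_of hn z hnear P (fun h τ hτ => ?_) (fun τ hτ hT => ?_) σ hσ
      fun U hU => ?_
    · rw [hev τ, ← hinv h τ.1.1 τ.1.2 (pc z τ) ((hrelP τ).symm.trans hτ) (hclass τ)]
      refine congrArg (fun x => eval x P) (funext fun v => ?_)
      rw [hsl]
      refine congrArg (fun M : SLC r => M.val v.2.1 v.2.2) ?_
      rcases v.1 with ⟨i, b⟩ | j
      · cases b <;> simp [mapH]
      · simp only [Sum.elim_inr, pc]; group
    · have := htriv _ hQ τ hτ hT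
      rwa [eval_pullP] at this
    · obtain ⟨U', h1, h2⟩ := hss U fun v u hu => by rw [← hsl]; exact hU v u hu
      exact ⟨U', fun v u hu => by rw [hsl]; exact h1 v u hu, h2⟩

end Vale.Agent.Results.P002.PuncturedCurveDensityTwo
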