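import Vale.Agent.P002.Product.Boundary.Seifert

/-!
# P002: integral points are dense for products of orbifold curve groups and Seifert groups
-/

namespace Vale.Agent.Results.P002.SeifertProductsDensity

open Matrix MvPolynomial
open Vale.Agent.P002

/-- Tuples `f` with the relations of a product of Seifert groups: `a_ik = f (inl ⟨i, inl (k, false)⟩)`,
`b_ik = f (inl ⟨i, inl (k, true)⟩)`, `c_il = f (inl ⟨i, inr l⟩)`, `z_i = f (inr i)`. -/
def SeifertTuple {r m : ℕ} {g s : Fin m → ℕ} (n : ∀ i, Fin (s i) → ℕ) (β : ∀ i, Fin (s i) → ℤ)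
    (e : Fin m → ℤ) (T : Finset (Fin m))
    (f : (Σ i, (Fin (g i) × Bool) ⊕ Fin (s i)) ⊕ Fin m → Matrix.SpecialLinearGroup (Fin r) ℂ) :
    Prop :=
  (∀ i, (List.ofFn fun k => f (.inl ⟨i, .inl (k, false)⟩) * f (.inl ⟨i, .inl (k, true)⟩) *
      (f (.inl ⟨i, .inl (k, false)⟩))⁻¹ * (f (.inl ⟨i, .inl (k, true)⟩))⁻¹).prod *
    (List.ofFn fun l => f (.inl ⟨i, .inr l⟩)).prod = f (.inr i) ^ e i) ∧
  (∀ i l, f (.inl ⟨i, .inr l⟩) ^ n i l = f (.inr i) ^ β i l) ∧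
  (∀ i w, f (.inr i) * f w = f w * f (.inr i)) ∧
  (∀ v w : Σ i, (Fin (g i) × Bool) ⊕ Fin (s i), v.1 ≠ w.1 →
    f (.inl v) * f (.inl w) = f (.inl w) * f (.inl v)) ∧
  ∀ i ∈ T, f (.inr i) = 1

theorem result : ∀ (r m : ℕ) (g s : Fin m → ℕ), 2 ≤ r → (∀ i, 2 ≤ g i) →
    ∀ (n : ∀ i, Fin (s i) → ℕ) (β : ∀ i, Fin (s i) → ℤ) (e : Fin m → ℤ) (T : Finset (Fin m)),
    (∀ i l, 0 < n i l) → (∀ i, i ∉ T → ∑ l, (β i l : ℚ) / n i l ≠ e i) →
    ∃ L : IntermediateField ℚ ℂ, FiniteDimensional ℚ L ∧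
      ∀ P : MvPolynomial
          (((Σ i, (Fin (g i) × Bool) ⊕ Fin (s i)) ⊕ Fin m) × Fin r × Fin r) ℂ,
        (∀ f, SeifertTuple n β e T f →
          (∀ U : Submodule ℂ (Fin r → ℂ), (∀ v, ∀ u ∈ U, (f v).val *ᵥ u ∈ U) →
            ∃ U' : Submodule ℂ (Fin r → ℂ), (∀ v, ∀ u ∈ U', (f v).val *ᵥ u ∈ U') ∧ IsCompl U U') →
          (∀ v p q, (f v).val p q ∈ L ∧ IsIntegral ℤ ((f v).val p q)) →
          eval (fun x => (f x.1).val x.2.1 x.2.2) P = 0) →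
        (∀ (h : Matrix.SpecialLinearGroup (Fin r) ℂ) f, SeifertTuple n β e T f →
          eval (fun x => (h * f x.1 * h⁻¹).val x.2.1 x.2.2) P =
            eval (fun x => (f x.1).val x.2.1 x.2.2) P) →
        ∀ f, SeifertTuple n β e T f →
          (∀ U : Submodule ℂ (Fin r → ℂ), (∀ v, ∀ u ∈ U, (f v).val *ᵥ u ∈ U) →
            ∃ U' : Submodule ℂ (Fin r → ℂ), (∀ v, ∀ u ∈ U', (f v).val *ᵥ u ∈ U') ∧ IsCompl U U') →
          eval (fun x => (f x.1).val x.2.1 x.2.2) P = 0 := by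
  intro r m g s hr hg n β e T hn hE
  have : NeZero r := ⟨by omega⟩
  obtain ⟨M, hM, hmain⟩ := eval_zero_seifert (r := r) g s hg n hn β e T hE
  have : NeZero M := ⟨hM.ne'⟩
  refine ⟨fldL M, finiteDimensional_fldL M, fun P hP0 hinv f hf' hss => ?_⟩
  obtain ⟨hf, hcn, hz, hcomm, hfT⟩ := id hf'
  obtain ⟨ρ, hρ⟩ := exists_seiHom g s f hcomm hz
  let P' : MvPolynomial (SeiGrp g s × Fin r × Fin r) ℂ :=
    rename (fun x => (seiGen g s x.1, x.2)) P
  have hev : ∀ τ : SeiGrp g s → SLC r,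
      eval (hcoord τ) P' = eval (fun x => (τ (seiGen g s x.1)).val x.2.1 x.2.2) P := fun τ => by
    rw [eval_rename]; rfl
  have hcom : ∀ (τ : SeiGrp g s →* SLC r) (v w : Σ i, CGen (g i) (s i)), v.1 ≠ w.1 →
      τ (seiGen g s (.inl v)) * τ (seiGen g s (.inl w)) =
        τ (seiGen g s (.inl w)) * τ (seiGen g s (.inl v)) := fun τ v w h => by
    rw [← map_mul, ← map_mul]
    congr 1
    exact Prod.ext (Pi.mulSingle_commute h _ _).eq rfl
  have hsemi : ∀ (τ : SeiGrp g s →* SLC r) (U : Submodule ℂ (Fin r → ℂ)),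
      (∀ v, ∀ u ∈ U, (τ (seiGen g s v)).val *ᵥ u ∈ U) ↔ ∀ γ, ∀ u ∈ U, (τ γ).val *ᵥ u ∈ U :=
    fun τ U => ⟨fun h γ => invariant_closure (Matrix.SpecialLinearGroup.toGL.comp τ)
      (by rintro _ ⟨v, rfl⟩; exact h v) γ (seiGen_closure g s γ), fun h v => h _⟩
  have key : eval (hcoord ρ) P' = 0 := by
    refine hmain P' ρ (fun i => ?_) (fun i l => ?_) (fun i w => ?_) (fun i hi => ?_)
      (fun U hU => ?_) (fun h => ?_) fun τ hτ hτn hτz hτT hint hτss => ?_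
    · simp only [hρ]; exact hf i
    · simp only [hρ]; exact hcn i l
    · simp only [hρ]; exact hz i w
    · simp only [hρ]; exact hfT i hi
    · obtain ⟨U', h1, h2⟩ := hss U fun v u hu => by rw [← hρ]; exact hU _ u hu
      exact ⟨U', (hsemi ρ U').1 fun v u hu => by rw [hρ]; exact h1 v u hu, h2⟩
    · rw [hev, hev]
      simp only [hρ]
      exact hinv h f hf'
    · rw [hev]
      refine hP0 (fun v => τ (seiGen g s v)) ⟨hτ, hτn, fun i w => (hτz i w).eq, hcom τ, hτT⟩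
        (fun U hU => ?_) fun v p q => mem_intL.1 (hint _ p q)
      obtain ⟨U', h1, h2⟩ := hτss U ((hsemi τ U).1 hU)
      exact ⟨U', (hsemi τ U').2 h1, h2⟩
  rw [hev] at key
  simpa only [hρ] using key

end Vale.Agent.Results.P002.SeifertProductsDensity
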