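import Vale.Agent.P002.GenusOne

/-!
# P002: integral representations of surface groups are Zariski dense in the character variety
-/

namespace Vale.Agent.Results.P002.SurfaceGroupDensity

open Matrix MvPolynomial
open Vale.Agent.P002

theorem result : ∀ r g : ℕ, 2 ≤ r →
    ∀ P : MvPolynomial ((Fin g × Bool) × Fin r × Fin r) ℂ,
      (∀ a' b' : Fin g → Matrix.SpecialLinearGroup (Fin r) ℤ,
        (List.ofFn fun i => a' i * b' i * (a' i)⁻¹ * (b' i)⁻¹).prod = 1 →
        eval (fun v => (((if v.1.2 then b' v.1.1 else a' v.1.1).val v.2.1 v.2.2 : ℤ) : ℂ)) P = 0) →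
      ((∀ a b : Fin g → Matrix.SpecialLinearGroup (Fin r) ℂ,
          (List.ofFn fun i => a i * b i * (a i)⁻¹ * (b i)⁻¹).prod = 1 →
          (∀ U : Submodule ℂ (Fin r → ℂ),
            (∀ i, ∀ u ∈ U, (a i).val *ᵥ u ∈ U ∧ (b i).val *ᵥ u ∈ U) → U = ⊥ ∨ U = ⊤) →
          eval (fun v => (if v.1.2 then b v.1.1 else a v.1.1).val v.2.1 v.2.2) P = 0) ∧
        ((∀ (h : Matrix.SpecialLinearGroup (Fin r) ℂ)
            (a b : Fin g → Matrix.SpecialLinearGroup (Fin r) ℂ),
            (List.ofFn fun i => a i * b i * (a i)⁻¹ * (b i)⁻¹).prod = 1 →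
            eval (fun v => (if v.1.2 then h * b v.1.1 * h⁻¹ else h * a v.1.1 * h⁻¹).val v.2.1 v.2.2) P =
              eval (fun v => (if v.1.2 then b v.1.1 else a v.1.1).val v.2.1 v.2.2) P) →
          ∀ a b : Fin g → Matrix.SpecialLinearGroup (Fin r) ℂ,
            (List.ofFn fun i => a i * b i * (a i)⁻¹ * (b i)⁻¹).prod = 1 →
            eval (fun v => (if v.1.2 then b v.1.1 else a v.1.1).val v.2.1 v.2.2) P = 0)) := by
  intro r g hr P hP
  cases g with
  | zero =>
    have h0 : ∀ x : (Fin 0 × Bool) × Fin r × Fin r → ℂ, eval x P = 0 := fun x => by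
      refine (congrArg (fun y => eval y P) (funext fun v => v.1.1.elim0)).trans
        (hP Fin.elim0 Fin.elim0 (by simp))
    exact ⟨fun _ _ _ _ => h0 _, fun _ _ _ _ => h0 _⟩
  | succ n =>
    have : NeZero r := ⟨by omega⟩
    have hP0 : ∀ y ∈ intPts n r, eval y P = 0 := by
      rintro y ⟨σ, hσ, rfl⟩
      have := hP σ.1 σ.2 (by rw [← relator_ofFn]; exact hσ)
      convert this using 2
      congr 1
      funext ⟨⟨i, c⟩, p, q⟩
      cases c <;> simp [coord, mapH, castSL]
    refine ⟨fun a b hrel hirr => ?_, fun hinv a b hrel => ?_⟩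
    · have hI : Irred (gens ((a, b) : Handles n (SLC r))) := fun U hU =>
        hirr U fun i u hu => ⟨by simpa [gens] using hU (i, false) u hu,
          by simpa [gens] using hU (i, true) u hu⟩
      exact (mem_of_full_pos hr (σ := (a, b)) (by rw [relator_ofFn]; exact hrel) hI.full).2 P hP0
    · refine eval_zero_of_invariant_pos hr (σ := (a, b)) (fun h ρ hρ => ?_) hP0
        (by rw [relator_ofFn]; exact hrel)
      exact hinv h ρ.1 ρ.2 (by rw [← relator_ofFn]; exact hρ)

end Vale.Agent.Results.P002.SurfaceGroupDensity
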